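import Vale.Agent.P167.H192.Q.RatB

/-!
# P167, general `q`, START: the error off the circuit event, by positive association

`A`: the squares which are not frozen. Closed (free) rows: the frozen squares of the annulus
`(x; r, R)` are closed, the bad event is the primal arm, `T` is decreasing. Open (wired) rows: the
frozen squares of the annulus are open, the bad event is the dual arm, `T` is increasing. `F` does not
depend on the squares of `A` in `B`.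
-/

namespace Vale.Agent.P167.H662.Q

open Finset Vale.Agent.P167.FK Vale.Agent.P167.FKA
open Vale.Agent.P167.H259 (f_markov f_fkg)
open Vale.Agent.P167.H192.Q (sq1 sq1_inj mem_im im_Bq ind_du ex_du pr_dec pr_arm_bdy)

variable {Q : ℝ} {x : ℤ × ℤ} {r R : ℤ} {A B : Finset (ℤ × ℤ)} {F T G : Cfg → ℝ} {ξ : Cfg} {p : ℝ}

/-- Decreasing functions of the configuration. -/
def DecF (F : Cfg → ℝ) : Prop := ∀ ω ω' : Cfg, (∀ v, ω v = true → ω' v = true) → F ω' ≤ F ω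

/-- Functions which are monotone in opposite directions are negatively correlated. -/
theorem fkg_opp (hQ : 1 ≤ Q) (hξ : Good ξ) (hT : DecF T) (hG : IncF G) :
    Ex Q A ξ (fun ω => T ω * G ω) ≤ Ex Q A ξ T * Ex Q A ξ G := by
  have h := f_fkg Q A ξ (fun ω => - T ω) G hQ hξ (fun ω ω' h => neg_le_neg (hT ω ω' h)) hG
  have e : (fun ω => - T ω * G ω) = fun ω => - (T ω * G ω) := by
    funext ω; ring
  rw [Ex_neg, e, Ex_neg] at h
  linarith

/-- The configuration is closed on the frozen part of the annulus. -/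
def FrA (x : ℤ × ℤ) (r R : ℤ) (A : Finset (ℤ × ℤ)) (ξ : Cfg) : Prop :=
  ∀ v ∈ Bq x R \ Bq x r, v ∉ A → ξ v = false

/-- The configuration is open on the frozen part of the annulus. -/
def WrA (x : ℤ × ℤ) (r R : ℤ) (A : Finset (ℤ × ℤ)) (ξ : Cfg) : Prop :=
  ∀ v ∈ Bq x R \ Bq x r, v ∉ A → ξ v = true

/-- Arms in an annulus with closed frozen squares. -/
theorem pr_fr (hQ : 1 ≤ Q) (hp : Pr Q (Bq x R \ Bq x r) eta1 {ω | ArmPx x r R ω} ≤ p)
    (hξ : Good ξ) (hfr : FrA x r R A ξ) : Pr Q A ξ {ω | ArmPx x r R ω} ≤ p := by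
  have hQ0 : 0 < Q := by linarith
  unfold Pr
  rw [f_markov Q (A ∩ (Bq x R \ Bq x r)) A ξ _ hQ0 Finset.inter_subset_left hξ,
    ← Ex_const (Q := Q) (D := A) (η := ξ) hQ0 p]
  refine Ex_mono hQ0 fun S _ => ?_
  refine pr_arm_bdy hQ hp Finset.inter_subset_right (f_good.1 A ξ S hξ) fun v hv hvA => ?_
  have h1 : v ∉ A := fun h => hvA (Finset.mem_inter.2 ⟨h, hv⟩)
  rw [cf_out h1]
  exact hfr v hv h1

/-- **The error at a hole between closed rows.** -/
theorem err_fr (hQ : 1 ≤ Q) (hp : Pr Q (Bq x R \ Bq x r) eta1 {ω | ArmPx x r R ω} ≤ p)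
    (hξ : Good ξ) (hfr : FrA x r R A ξ) (hB : Bq x R \ Bq x r ⊆ B) (hF0 : ∀ ω, 0 ≤ F ω)
    (hF : Ind (A ∩ B) F) (hT0 : ∀ ω, 0 ≤ T ω) (hT : DecF T) :
    Ex Q A ξ (fun ω => F ω * (T ω * {ω | ArmPx x r R ω}.indicator 1 ω)) ≤
      p * Ex Q A ξ (fun ω => F ω * T ω) := by
  have hQ0 : 0 < Q := by linarith
  rw [markov f_markov hQ0 (A := A ∩ B) Finset.inter_subset_left hξ hF
      (F := fun ω => T ω * {ω | ArmPx x r R ω}.indicator 1 ω),
    markov f_markov hQ0 (A := A ∩ B) Finset.inter_subset_left hξ hF (F := T), ← Ex_mul_left]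
  refine Ex_mono hQ0 fun S _ => ?_
  rw [mul_left_comm p]
  refine mul_le_mul_of_nonneg_left ?_ (hF0 _)
  have hg := f_good.1 A ξ S hξ
  have h1 := fkg_opp (A := A ∩ B) hQ hg hT (inc_arm x r R).incF
  have h2 : Pr Q (A ∩ B) (cf A ξ S) {ω | ArmPx x r R ω} ≤ p := by
    refine pr_fr hQ hp hg fun v hv hvA => ?_
    have h3 : v ∉ A := fun h => hvA (Finset.mem_inter.2 ⟨h, hB hv⟩)
    rw [cf_out h3]
    exact hfr v hv h3
  have h4 : 0 ≤ Ex Q (A ∩ B) (cf A ξ S) T := Ex_nonneg hQ0 fun _ _ => hT0 _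
  refine h1.trans ?_
  rw [mul_comm p]
  exact mul_le_mul_of_nonneg_left h2 h4

/-- The same with the rate. -/
theorem err_fr_dec (hQ : 1 ≤ Q) {α C : ℝ} (h : ArmDec Q α C) (hr : 1 ≤ r) (hrR : r ≤ R)
    (hξ : Good ξ) (hfr : FrA x r R A ξ) (hB : Bq x R \ Bq x r ⊆ B) (hF0 : ∀ ω, 0 ≤ F ω)
    (hF : Ind (A ∩ B) F) (hT0 : ∀ ω, 0 ≤ T ω) (hT : DecF T) :
    Ex Q A ξ (fun ω => F ω * (T ω * {ω | ArmPx x r R ω}.indicator 1 ω)) ≤
      C * ((r : ℝ) / R) ^ α * Ex Q A ξ (fun ω => F ω * T ω) :=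
  err_fr hQ (pr_dec hQ h hr hrR) hξ hfr hB hF0 hF hT0 hT

/-! ### Open rows, by duality -/

theorem WrA.du (h : WrA x r R A ξ) : FrA (sq1 x) r R (A.image sq1) (du ξ) := by
  intro v hv hvA
  rw [← im_Bq, ← im_Bq, Finset.mem_sdiff, mem_im, mem_im, ← Finset.mem_sdiff] at hv
  rw [mem_im] at hvA
  show (!(ξ (v.1 - 1, v.2))) = false
  rw [h _ hv hvA]
  rfl

theorem ind_armD (ω : Cfg) : ({ω | ArmDx x r R ω}.indicator 1 (H519.dui ω) : ℝ) =
    {ω | ArmPx (sq1 x) r R ω}.indicator 1 ω := by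
  have e : H519.dui = dui := rfl
  have h1 : ArmDx x r R (dui ω) ↔ ArmPx (sq1 x) r R ω := by
    rw [arm_dual, du_dui]
    rfl
  rw [e]
  by_cases h : ArmPx (sq1 x) r R ω
  · rw [Set.indicator_of_mem (show dui ω ∈ {ω | ArmDx x r R ω} from h1.2 h),
      Set.indicator_of_mem (show ω ∈ {ω | ArmPx (sq1 x) r R ω} from h)]
    rfl
  · rw [Set.indicator_of_notMem (show dui ω ∉ {ω | ArmDx x r R ω} from fun h' => h (h1.1 h')),
      Set.indicator_of_notMem (show ω ∉ {ω | ArmPx (sq1 x) r R ω} from h)]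

theorem dec_du (hT : IncF T) : DecF fun ω => T (H519.dui ω) := by
  intro ω ω' h
  refine hT _ _ fun v hv => ?_
  have h1 : (!(ω' (v.1 + 1, v.2))) = true := hv
  show (!(ω (v.1 + 1, v.2))) = true
  rcases h2 : ω (v.1 + 1, v.2) with _ | _
  · rfl
  · rw [h _ h2] at h1
    exact h1

/-- **The error at a hole between open rows.** -/
theorem err_wr_dec (hQ : 1 ≤ Q) {α C : ℝ} (h : ArmDec Q α C) (hr : 1 ≤ r) (hrR : r ≤ R)
    (hξ : Good ξ) (hfr : WrA x r R A ξ) (hB : Bq x R \ Bq x r ⊆ B) (hF0 : ∀ ω, 0 ≤ F ω)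
    (hF : Ind (A ∩ B) F) (hT0 : ∀ ω, 0 ≤ T ω) (hT : IncF T) :
    Ex Q A ξ (fun ω => F ω * (T ω * {ω | ArmDx x r R ω}.indicator 1 ω)) ≤
      C * ((r : ℝ) / R) ^ α * Ex Q A ξ (fun ω => F ω * T ω) := by
  rw [ex_du hQ hξ (fun ω => F ω * (T ω * {ω | ArmDx x r R ω}.indicator 1 ω)),
    ex_du hQ hξ (fun ω => F ω * T ω)]
  simp only [ind_armD]
  refine err_fr_dec (B := B.image sq1) hQ h hr hrR (f_dual.1 _ hξ) hfr.du ?_ (fun _ => hF0 _) ?_
    (fun _ => hT0 _) (dec_du hT)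
  · rw [← im_Bq, ← im_Bq]
    intro v hv
    rw [Finset.mem_sdiff, mem_im, mem_im, ← Finset.mem_sdiff] at hv
    rw [mem_im]
    exact hB hv
  · rw [← Finset.image_inter _ _ sq1_inj]
    exact ind_du hF

/-! ### All holes -/

/-- **All the holes of one kind.** -/
theorem err_union (hQ0 : 0 < Q) {ι : Type*} (I : Finset ι) (E : ι → Set Cfg) (p : ι → ℝ)
    {H : Cfg → ℝ} (hH : ∀ ω, 0 ≤ H ω)
    (h : ∀ i ∈ I, Ex Q A ξ (fun ω => H ω * (E i).indicator 1 ω) ≤ p i * Ex Q A ξ H) :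
    Ex Q A ξ (fun ω => H ω * (⋃ i ∈ I, E i).indicator 1 ω) ≤ (∑ i ∈ I, p i) * Ex Q A ξ H := by
  refine le_trans (Ex_mono (G := fun ω => ∑ i ∈ I, H ω * (E i).indicator 1 ω) hQ0 fun S _ => ?_) ?_
  · by_cases h1 : cf A ξ S ∈ ⋃ i ∈ I, E i
    · simp only [Set.mem_iUnion] at h1
      obtain ⟨i, hi, h2⟩ := h1
      have h3 : H (cf A ξ S) * (E i).indicator 1 (cf A ξ S) ≤
          ∑ i ∈ I, H (cf A ξ S) * (E i).indicator 1 (cf A ξ S) :=
        Finset.single_le_sum (f := fun i => H (cf A ξ S) * (E i).indicator 1 (cf A ξ S))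
          (fun j _ => mul_nonneg (hH _) (ind_nonneg _ _)) hi
      refine le_trans (mul_le_mul_of_nonneg_left (ind_le_one _ _) (hH _)) ?_
      rw [Set.indicator_of_mem h2] at h3
      exact h3
    · show H (cf A ξ S) * (⋃ i ∈ I, E i).indicator 1 (cf A ξ S) ≤ _
      rw [Set.indicator_of_notMem h1, mul_zero]
      exact Finset.sum_nonneg fun j _ => mul_nonneg (hH _) (ind_nonneg _ _)
  · rw [Ex_sum, Finset.sum_mul]
    exact Finset.sum_le_sum h

end Vale.Agent.P167.H662.Q
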